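import Vale.Agent.Lib.P028Q.Defs
import Vale.Agent.Lib.P028K.KLm

/-! Part KLmQ: the main set, high moments up to `k ≤ log Y / 50`. -/

open Finset Filter

namespace Vale.Agent.Lib.P028Q

open Vale.Agent.Lib.P028
open Vale.Agent.Lib.P028T
open Vale.Agent.Lib.P028K

noncomputable section

variable {B M : ℕ} [NeZero M]

/-- `KLm_abstract` with a general loss. -/
theorem KLm_abstract_G {D C ν ε : ℝ} (hν : 0 < ν) (hD : D = 2 / ν) (hC0 : 0 < C)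
    (hC : ∀ (θ : ℝ) (N0 X0 U : ℕ) (η R : ℝ),
      1 ≤ X0 → 1 ≤ U → 0 < η → η ≤ 1 → 1 ≤ R → R ^ 3 ≤ N0 → (X0:ℝ) ≤ (N0:ℝ) ^ D →
      (∀ n : ℕ, 1 ≤ n → n ≤ N0 → η ≤ dn ((n:ℝ) * θ)) →
      (16 * R ^ 2 / η ^ 2 ≤ X0 ∨ 2 * Real.sqrt R / η ≤ U) →
      ∑ x ∈ Ico X0 (8 * X0), ∑ x' ∈ (Ico X0 (8 * X0)).filter (· ≠ x),
          (Nat.gcd x x' : ℝ) * hh θ U (max x x' - min x x')
        ≤ C * (X0:ℝ) ^ 2 * (U:ℝ) ^ 2 * (1 + Real.log (X0:ℝ)) * (1 / (U:ℝ) + 1 / R))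
    (k : ℕ) (hk : 1 ≤ k) (hM : 2 ≤ M) (lam : ℝ) (hkl : 50 * (k:ℝ) ≤ lam) (hlam1 : 1 ≤ lam)
    (P Q0 T S2 j2 Y Y' : ℕ) (β y4 t L G G2 : ℝ) (hY : 1 ≤ Y) (hY' : Y' ≤ 2 * Y) (hT : 2 ≤ T) (hPQ : P ≤ Q0) (hQ4 : 4 ≤ Q0)
    (hfits : ∀ a ∈ Ico 1 (Y' + 1), Fits B M a)
    (hQ0 : lam ^ 16 ≤ Q0) (ht1 : 1 ≤ t) (htT : t ^ 16 = T) (hS2 : (S2:ℝ) ≤ 2 * t) (hlj : lam ^ j2 ≤ t)
    (hy41 : 1 ≤ y4) (hy4 : y4 ^ 4 = Y) (hL : L = Real.log Y) (hL1 : 2 ≤ L)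
    (hMA : MA β ⌊(Y:ℝ) ^ ν⌋₊ ((Y:ℝ) ^ (-(1 / 4 : ℝ))))
    (hN1 : (T:ℝ) ^ 4 ≤ (Y:ℝ) ^ ν) (hN2 : (Y:ℝ) ^ (ν / 2) ≤ ((⌊(Y:ℝ) ^ ν⌋₊ / T : ℕ):ℝ))
    (hN3 : 68 * (T:ℝ) ^ 4 ≤ y4) (hG1 : 1 ≤ G)
    (hoff : 12 * lam ^ 2 * Real.sqrt (3 * C * (1 + L)) ≤ t ^ 4)
    (hN4 : ∀ r : ℕ, (r:ℝ) ≤ 1 + L ^ (ε / 4) → (lam ^ 2) ^ r ≤ G)
    (hN3' : ∀ (s X : ℕ), L ^ (ε / 4) < s → lam ^ (16 * s) ≤ T → L / 2 ≤ Real.log X → 1 ≤ X →
      ∃ η : ℝ, 0 < η ∧ η ≤ 1 / 4 ∧ 2 ≤ ⌈(T:ℝ) ^ ((1:ℝ) / (s:ℝ))⌉₊ ∧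
        (lam ^ 2) ^ (s + 1) * ((X:ℝ) ^ (1 - η) *
          Real.exp (3 * ((⌈(T:ℝ) ^ ((1:ℝ) / (s:ℝ))⌉₊ : ℕ):ℝ) ^ η * Mer ⌈(T:ℝ) ^ ((1:ℝ) / (s:ℝ))⌉₊)) ≤ X)
    (hmain : (4 * L) ^ 6 * (17 * G) * Real.exp (6 * (5 + 4 * Real.log (2 * L + 2))) ≤ G2) :
    mm k (SS (B := B) (M := M) β (Mset P Q0 T T S2 j2 Y Y')) ^ 2 ≤ Y * G2 := by
  have hLpos : 0 < L := by linarith
  have hYpos : (0:ℝ) < Y := by exact_mod_cast hY
  set Lm := Nat.log 2 Y' with hLm'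
  have hLm : Y' < 2 ^ (Lm + 1) := Nat.lt_pow_succ_log_self (by norm_num) Y'
  have hk1 : 1 ≤ k := hk
  have hSS : SS (B := B) (M := M) β (Mset P Q0 T T S2 j2 Y Y') = fun ω =>
      ∑ q ∈ Qset Q0 T, ∑ r ∈ range (Nat.log 2 Y' + 1), ∑ i ∈ range (Lm + 1),
        ff ω q * famF P Q0 T S2 j2 Y Y' β q r i ω := by
    funext ω
    exact SS_eq_fam P Q0 T S2 j2 Y Y' Lm hPQ (by omega) hT hY le_rfl β ω
  set A := Real.sqrt (17 * G * Y) with hA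
  have hA0 : 0 ≤ A := Real.sqrt_nonneg _
  have hLm0 : (0:ℝ) ≤ (Lm:ℝ) + 1 := by positivity
  -- family
  have hfam : ∀ q ∈ Qset Q0 T, ∀ r i : ℕ,
      mm k (fun ω : Om B M => ff ω q * famF P Q0 T S2 j2 Y Y' β q r i ω) ≤ ((Lm:ℝ) + 1) * A * (Real.sqrt q)⁻¹ := by
    intro q hq r i
    rw [mm_unimod k hk _ _ (fun ω => norm_ff ω q)]
    have h1 := fam_bound (ν₀ := 0) (ε := ε) hν hD hC0 hC k hk hM lam hkl hlam1 P Q0 T S2 j2 Y Y' q r i Lm β y4 t L G hY hY' hT hq hLm hfits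
      hQ0 ht1 htT hS2 hlj hy41 hy4 hL (by linarith) hMA hN1 hN2 hN3 hG1 hoff hN4 hN3'
    have hq1 := (mem_Qset.1 hq).1.1
    have hq0 : (0:ℝ) < q := by exact_mod_cast hq1
    have hsq0 : 0 < Real.sqrt q := Real.sqrt_pos.2 hq0
    have h2 : (((Lm:ℝ) + 1) * A * (Real.sqrt q)⁻¹) ^ 2 = ((Lm:ℝ) + 1) ^ 2 * (((Y:ℝ) / q) * (17 * G)) := by
      rw [mul_pow, mul_pow, inv_pow, Real.sq_sqrt hq0.le, hA, Real.sq_sqrt (by positivity)]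
      field_simp
    rw [← h2] at h1
    exact (pow_le_pow_iff_left₀ (mm_nonneg _ _) (by positivity) (by norm_num)).1 h1
  have hsum : mm k (SS (B := B) (M := M) β (Mset P Q0 T T S2 j2 Y Y')) ≤
      ((Lm:ℝ) + 1) ^ 3 * A * Real.exp (3 * Mer (T + 1)) := by
    rw [hSS]
    calc mm k (fun ω : Om B M => ∑ q ∈ Qset Q0 T, ∑ r ∈ range (Nat.log 2 Y' + 1), ∑ i ∈ range (Lm + 1),
            ff ω q * famF P Q0 T S2 j2 Y Y' β q r i ω)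
        ≤ ∑ q ∈ Qset Q0 T, mm k (fun ω : Om B M => ∑ r ∈ range (Nat.log 2 Y' + 1), ∑ i ∈ range (Lm + 1),
            ff ω q * famF P Q0 T S2 j2 Y Y' β q r i ω) := mm_sum k hk _ _
      _ ≤ ∑ q ∈ Qset Q0 T, ∑ r ∈ range (Nat.log 2 Y' + 1), mm k (fun ω : Om B M => ∑ i ∈ range (Lm + 1),
            ff ω q * famF P Q0 T S2 j2 Y Y' β q r i ω) :=
          Finset.sum_le_sum fun q _ => mm_sum k hk _ _
      _ ≤ ∑ q ∈ Qset Q0 T, ∑ r ∈ range (Nat.log 2 Y' + 1), ∑ i ∈ range (Lm + 1),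
            mm k (fun ω : Om B M => ff ω q * famF P Q0 T S2 j2 Y Y' β q r i ω) :=
          Finset.sum_le_sum fun q _ => Finset.sum_le_sum fun r _ => mm_sum k hk _ _
      _ ≤ ∑ q ∈ Qset Q0 T, ∑ r ∈ range (Nat.log 2 Y' + 1), ∑ i ∈ range (Lm + 1),
            ((Lm:ℝ) + 1) * A * (Real.sqrt q)⁻¹ :=
          Finset.sum_le_sum fun q hq => Finset.sum_le_sum fun r _ => Finset.sum_le_sum fun i _ => hfam q hq r i
      _ = ((Lm:ℝ) + 1) ^ 3 * A * ∑ q ∈ Qset Q0 T, (Real.sqrt q)⁻¹ := by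
          simp only [Finset.sum_const, Finset.card_range, nsmul_eq_mul, ← hLm']
          rw [Finset.mul_sum]
          refine Finset.sum_congr rfl fun q _ => ?_
          push_cast
          ring
      _ ≤ ((Lm:ℝ) + 1) ^ 3 * A * Real.exp (3 * Mer (T + 1)) := by
          gcongr
          refine sum_squarefull Q0 (T + 1) hQ4 _ ?_
          intro a ha
          obtain ⟨⟨ha1, haT⟩, haq⟩ := mem_Qset.1 ha
          refine ⟨by omega, haq, fun p hp => ?_⟩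
          have := Nat.le_of_mem_primeFactors hp
          omega
  -- numerics
  have hLmle : (Lm:ℝ) + 1 ≤ 4 * L := by
    rcases Nat.eq_zero_or_pos Y' with h0 | h0
    · have : Lm = 0 := by
        rw [hLm', h0]
        simp
      rw [this]
      push_cast
      linarith
    · have h1 : 2 ^ Lm ≤ Y' := Nat.pow_log_le_self 2 (by omega)
      have h2 : ((2:ℝ) ^ Lm) ≤ 2 * (Y:ℝ) := by
        have : 2 ^ Lm ≤ 2 * Y := h1.trans hY'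
        exact_mod_cast this
      have h3 := Real.log_le_log (by positivity) h2
      rw [Real.log_pow, Real.log_mul (by norm_num) hYpos.ne', ← hL] at h3
      have hl2 : (1 / 2 : ℝ) ≤ Real.log 2 := by
        have := Real.log_two_gt_d9
        linarith
      have h4 : (Lm:ℝ) * (1 / 2) ≤ (Lm:ℝ) * Real.log 2 := by gcongr
      have hl3 := Real.log_two_lt_d9
      linarith
  have hTY : T + 1 ≤ Y := by
    have hT1 : (1:ℝ) ≤ T := by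
      have : (2:ℝ) ≤ T := by exact_mod_cast hT
      linarith
    have h1 : (T:ℝ) ≤ (T:ℝ) ^ 4 := le_self_pow₀ hT1 (by norm_num)
    have h2 : y4 ≤ y4 ^ 4 := le_self_pow₀ hy41 (by norm_num)
    have h3 : (T:ℝ) + 1 ≤ (Y:ℝ) := by
      rw [← hy4]
      have h4 : (0:ℝ) ≤ (T:ℝ) ^ 4 := by positivity
      linarith
    exact_mod_cast h3
  have hMerle : Mer (T + 1) ≤ 5 + 4 * Real.log (2 * L + 2) := by
    have h1 := Mer_le (T + 1) (by omega)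
    have h2 : Real.log ((T + 1 : ℕ):ℝ) ≤ L := by
      rw [hL]
      exact Real.log_le_log (by positivity) (by exact_mod_cast hTY)
    have h3 : 0 ≤ Real.log ((T + 1 : ℕ):ℝ) := Real.log_natCast_nonneg _
    have h4 : Real.log (2 * Real.log ((T + 1 : ℕ):ℝ) + 2) ≤ Real.log (2 * L + 2) :=
      Real.log_le_log (by linarith) (by linarith)
    linarith
  have hAsq : A ^ 2 = 17 * G * Y := Real.sq_sqrt (by positivity)
  calc mm k (SS (B := B) (M := M) β (Mset P Q0 T T S2 j2 Y Y')) ^ 2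
      ≤ (((Lm:ℝ) + 1) ^ 3 * A * Real.exp (3 * Mer (T + 1))) ^ 2 := by
        exact pow_le_pow_left₀ (mm_nonneg _ _) hsum 2
    _ = ((Lm:ℝ) + 1) ^ 6 * (17 * G) * Real.exp (6 * Mer (T + 1)) * Y := by
        rw [mul_pow, mul_pow, hAsq, ← Real.exp_nat_mul]
        have : ((2:ℕ):ℝ) * (3 * Mer (T + 1)) = 6 * Mer (T + 1) := by
          push_cast
          ring
        rw [this]
        ring
    _ ≤ (4 * L) ^ 6 * (17 * G) * Real.exp (6 * (5 + 4 * Real.log (2 * L + 2))) * Y := by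
        gcongr
    _ ≤ G2 * Y := by gcongr
    _ = Y * G2 := mul_comm _ _


/-- Every `r`: the exponent is `g (2 s + 2 + 41 - 50 s)`. -/
lemma N3_Q (L g : ℝ) (s T X : ℕ) (hg : g = Real.log L) (hL1 : 1 ≤ L)
    (hLC : 5 + 4 * Real.log (2 * L + 2) ≤ 5 * Real.log L) (hg6 : 6 ≤ g) (hs : 1 ≤ s)
    (hT : L ^ (16 * s) ≤ T) (hlogT : Real.log T ≤ (5 / 4) * (1 / (200 * g)) * L) (hlogX : L / 2 ≤ Real.log X) (hX1 : 1 ≤ X) :
    ∃ η : ℝ, 0 < η ∧ η ≤ 1 / 4 ∧ 2 ≤ ⌈(T:ℝ) ^ ((1:ℝ) / (s:ℝ))⌉₊ ∧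
      (L ^ 2) ^ (s + 1) * ((X:ℝ) ^ (1 - η) *
        Real.exp (3 * ((⌈(T:ℝ) ^ ((1:ℝ) / (s:ℝ))⌉₊ : ℕ):ℝ) ^ η * Mer ⌈(T:ℝ) ^ ((1:ℝ) / (s:ℝ))⌉₊)) ≤ X := by
  have hLpos : 0 < L := by linarith
  have hg0 : 0 < g := by linarith
  have hspos : (0:ℝ) < s := by exact_mod_cast hs
  have hs1 : (1:ℝ) ≤ s := by exact_mod_cast hs
  have hTpos : (0:ℝ) < T := lt_of_lt_of_le (by positivity) hT
  have h16 : 16 * (s:ℝ) * g ≤ Real.log T := by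
    have := Real.log_le_log (by positivity) hT
    rw [Real.log_pow] at this
    push_cast at this
    rw [hg]
    linarith
  obtain ⟨τ, hτ⟩ : ∃ τ, τ = Real.log T / s := ⟨_, rfl⟩
  have hτs : τ * s = Real.log T := by
    rw [hτ]
    field_simp
  have hτ16 : 16 * g ≤ τ := by
    rw [hτ, le_div_iff₀ hspos]
    linarith
  have hτ96 : 96 ≤ τ := by linarith
  have hTexp : (T:ℝ) ^ ((1:ℝ) / (s:ℝ)) = Real.exp τ := by
    rw [Real.rpow_def_of_pos hTpos, hτ]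
    congr 1
    ring
  rw [hTexp]
  obtain ⟨hz2, hlogzge, hlogzle⟩ := zfacts τ hτ96
  obtain ⟨z, hz⟩ : ∃ z, z = ⌈Real.exp τ⌉₊ := ⟨_, rfl⟩
  rw [← hz] at hz2 hlogzge hlogzle ⊢
  have hzpos : (0:ℝ) < z := by
    have : (2:ℝ) ≤ z := by exact_mod_cast hz2
    linarith
  have hlogz96 : 96 ≤ Real.log z := by linarith
  have hlogzpos : 0 < Real.log z := by linarith
  refine ⟨1 / Real.log z, by positivity, ?_, hz2, ?_⟩
  · rw [div_le_div_iff₀ hlogzpos (by norm_num)]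
    linarith
  have hzη : (z:ℝ) ^ (1 / Real.log z) = Real.exp 1 := by
    rw [Real.rpow_def_of_pos hzpos]
    congr 1
    field_simp
  rw [hzη]
  have hA : Real.log z * s ≤ (5 / 4) * Real.log T := by
    calc Real.log z * s ≤ (5 / 4) * τ * s := by gcongr
      _ = (5 / 4) * Real.log T := by rw [mul_assoc, hτs]
  have hB : 100 * g * (Real.log z * s) ≤ L := by
    have h1 : Real.log z * s ≤ (5 / 4) * ((5 / 4) * (1 / (200 * g)) * L) := by linarith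
    have h2 : 100 * g * (Real.log z * s) ≤ 100 * g * ((5 / 4) * ((5 / 4) * (1 / (200 * g)) * L)) := by gcongr
    have h3 : 100 * g * ((5 / 4) * ((5 / 4) * (1 / (200 * g)) * L)) = (25 / 32) * L := by
      field_simp
      norm_num
    linarith
  have hlogzL : Real.log z ≤ L := by
    have h1 : Real.log z * 1 ≤ Real.log z * s := by gcongr
    have h2 : 1 * (Real.log z * s) ≤ 100 * g * (Real.log z * s) := by
      have : (1:ℝ) ≤ 100 * g := by linarith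
      have h3 : 0 ≤ Real.log z * s := by positivity
      gcongr
    linarith
  have hMer : Mer z ≤ 5 * g := by
    have h3 := Mer_le z hz2
    have h5 : Real.log (2 * Real.log z + 2) ≤ Real.log (2 * L + 2) :=
      Real.log_le_log (by linarith) (by linarith)
    rw [hg]
    linarith
  have hMer0 : 0 ≤ Mer z := by
    unfold Mer
    positivity
  have hXpos : (0:ℝ) < X := by exact_mod_cast hX1
  have hexpo : 2 * ((s:ℝ) + 1) * Real.log L - (1 / Real.log z) * Real.log X + 3 * (Real.exp 1 * Mer z) ≤ 0 := by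
    rw [← hg]
    have h1 : 50 * g * s ≤ (1 / Real.log z) * Real.log X := by
      have h2 : (1 / Real.log z) * (L / 2) ≤ (1 / Real.log z) * Real.log X := by gcongr
      have h3 : 50 * g * s ≤ (1 / Real.log z) * (L / 2) := by
        rw [one_div, inv_mul_eq_div, le_div_iff₀ hlogzpos]
        linarith
      linarith
    have he : Real.exp 1 ≤ 2.72 := by
      have := Real.exp_one_lt_d9
      linarith
    have h4 : Real.exp 1 * Mer z ≤ 2.72 * (5 * g) := by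
      apply mul_le_mul he hMer hMer0 (by norm_num)
    have h5 : 0 ≤ g * (48 * (s:ℝ) - 43) := mul_nonneg hg0.le (by linarith)
    nlinarith
  exact final_mul L s X (1 / Real.log z) (Real.exp 1) (Mer z) s rfl hLpos hXpos hexpo

/-- The eventual facts. -/
lemma ev_Q (C ν : ℝ) (hC : 0 < C) (hν : 0 < ν) : ∀ᶠ L : ℝ in atTop,
    5 + 4 * Real.log (2 * L + 2) ≤ 5 * Real.log L ∧ 12 * L ^ 2 * Real.sqrt (3 * C * (1 + L)) ≤ Real.exp ((1 / (200 * Real.log L)) / 4 * L) ∧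
    (16:ℝ) ≤ Real.exp ((ν / 2) * L) ∧ (1088:ℝ) ≤ Real.exp ((3 / 16) * L) ∧
    (8:ℝ) ≤ Real.exp ((3 * ν / 8) * L) ∧ (2:ℝ) ≤ Real.exp ((1 / (200 * Real.log L)) / 4 * L) ∧ (1000:ℝ) ≤ L ∧
    (100:ℝ) ≤ Real.log L ∧ 1 / ν ≤ Real.log L ∧ 3200 * Real.log L ^ 2 ≤ L ^ ((1:ℝ) / 4) ∧ 3200 * Real.log L ^ 2 ≤ L := by
  have hexp : ∀ a : ℝ, 0 < a → ∀ c : ℝ, ∀ᶠ L : ℝ in atTop, c ≤ Real.exp (a * L) := by
    intro a ha c
    have h1 : Tendsto (fun L : ℝ => a * L) atTop atTop := tendsto_id.const_mul_atTop ha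
    exact (Real.tendsto_exp_atTop.comp h1).eventually_ge_atTop c
  have hlg : ∀ c : ℝ, ∀ᶠ L : ℝ in atTop, c ≤ Real.log L := fun c =>
    Real.tendsto_log_atTop.eventually_ge_atTop c
  have h18 : ∀ᶠ L : ℝ in atTop, Real.log L ≤ (1 / 60) * L ^ ((1:ℝ) / 8) := by
    have := (isLittleO_log_rpow_atTop (r := 1 / 8) (by norm_num)).bound (c := 1 / 60) (by norm_num)
    filter_upwards [this, eventually_ge_atTop 1] with L hL hL1
    have h0 : 0 ≤ Real.log L := Real.log_nonneg hL1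
    rwa [Real.norm_of_nonneg h0, Real.norm_of_nonneg (by positivity)] at hL
  have hC' : ∀ᶠ L : ℝ in atTop, 5 + 4 * Real.log (2 * L + 2) ≤ 5 * Real.log L := by
    have h1 : Tendsto Real.log atTop atTop := Real.tendsto_log_atTop
    filter_upwards [h1.eventually_ge_atTop (5 + 4 * Real.log 4), eventually_ge_atTop 1] with L hL hL1
    have hLpos : 0 < L := by linarith
    have h2 : Real.log (2 * L + 2) ≤ Real.log 4 + Real.log L := by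
      rw [← Real.log_mul (by norm_num) hLpos.ne']
      exact Real.log_le_log (by positivity) (by linarith)
    linarith
  filter_upwards [hC', h18, hlg (Real.log (12 * (6 * C + 1)) + 3), hexp (ν / 2) (by positivity) 16,
    hexp (3 / 16) (by norm_num) 1088, hexp (3 * ν / 8) (by positivity) 8, eventually_ge_atTop 1000,
    hlg 100, hlg (1 / ν)] with L h1 h2 h3 h4 h5 h6 h7 h8 h9
  have hLpos : 0 < L := by linarith
  have hg0 : 0 < Real.log L := by linarith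
  have h2sq : 3200 * Real.log L ^ 2 ≤ L ^ ((1:ℝ) / 4) := by
    have h10 : L ^ ((1:ℝ) / 4) = (L ^ ((1:ℝ) / 8)) ^ 2 := by
      rw [← Real.rpow_natCast, ← Real.rpow_mul hLpos.le]
      norm_num
    rw [h10]
    have h11 : Real.log L ^ 2 ≤ ((1 / 60) * L ^ ((1:ℝ) / 8)) ^ 2 := pow_le_pow_left₀ hg0.le h2 2
    have h12 : ((1 / 60) * L ^ ((1:ℝ) / 8)) ^ 2 = (1 / 3600) * (L ^ ((1:ℝ) / 8)) ^ 2 := by ring
    have h13 : 0 ≤ (L ^ ((1:ℝ) / 8)) ^ 2 := by positivity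
    linarith
  have h14L : L ^ ((1:ℝ) / 4) ≤ L := by
    calc L ^ ((1:ℝ) / 4) ≤ L ^ (1:ℝ) := Real.rpow_le_rpow_of_exponent_le (by linarith) (by norm_num)
      _ = L := Real.rpow_one L
  have h2sqL : 3200 * Real.log L ^ 2 ≤ L := h2sq.trans h14L
  have hform : (1 / (200 * Real.log L)) / 4 * L = L / (800 * Real.log L) := by
    field_simp
    norm_num
  have hfour : 4 * Real.log L ≤ L / (800 * Real.log L) := by
    rw [le_div_iff₀ (by positivity)]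
    nlinarith
  refine ⟨h1, ?_, h4, h5, h6, ?_, h7, h8, h9, h2sq, h2sqL⟩
  · rw [hform]
    have hsq : Real.sqrt (3 * C * (1 + L)) ≤ (6 * C + 1) * L := by
      rw [Real.sqrt_le_left (by positivity)]
      have h2' : 3 * C * (1 + L) ≤ 6 * C * L := by nlinarith
      have h3' : 6 * C * L ≤ ((6 * C + 1) * L) ^ 2 := by
        have h4 : (6 * C + 1) * L ≥ 1 := by nlinarith
        nlinarith [mul_pos hC hLpos]
      linarith
    have hA : 0 < 12 * (6 * C + 1) := by positivity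
    have hcalc : 12 * L ^ 2 * Real.sqrt (3 * C * (1 + L)) ≤ (12 * (6 * C + 1)) * L ^ 3 := by
      calc 12 * L ^ 2 * Real.sqrt (3 * C * (1 + L)) ≤ 12 * L ^ 2 * ((6 * C + 1) * L) := by gcongr
        _ = (12 * (6 * C + 1)) * L ^ 3 := by ring
    refine hcalc.trans ?_
    have hexp' : (12 * (6 * C + 1)) * L ^ 3 = Real.exp (Real.log (12 * (6 * C + 1)) + 3 * Real.log L) := by
      rw [Real.exp_add, Real.exp_log hA]
      congr 1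
      have : (3:ℝ) = ((3:ℕ):ℝ) := by norm_num
      rw [this, Real.exp_nat_mul, Real.exp_log hLpos]
    rw [hexp']
    apply Real.exp_le_exp.2
    linarith
  · rw [hform]
    have h13 : 1 ≤ L / (800 * Real.log L) := by linarith
    have := Real.add_one_le_exp (L / (800 * Real.log L))
    linarith

/-- The final numerics. -/
lemma N1_Q (L g : ℝ) (hg : g = Real.log L) (hL1 : 1 ≤ L) (hg100 : 100 ≤ g) :
    (4 * L) ^ 6 * (17 * L ^ 2) * Real.exp (6 * (5 + 4 * Real.log (2 * L + 2))) ≤ L ^ 33 := by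
  have hLpos : 0 < L := by linarith
  have hlog4 : Real.log 4 ≤ 2 := by
    have h3 : Real.log 4 = Real.log (4 / 2) + Real.log 2 := by
      rw [← Real.log_mul (by norm_num) (by norm_num)]
      norm_num
    have h5 : Real.log ((4:ℝ) / 2) = Real.log 2 := by norm_num
    have h4 := Real.log_two_lt_d9
    rw [h5] at h3
    linarith
  have h4L : Real.log (4 * L) = Real.log 4 + Real.log L := Real.log_mul (by norm_num) hLpos.ne'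
  have h2L : Real.log (2 * L + 2) ≤ Real.log (4 * L) := by
    apply Real.log_le_log (by positivity)
    linarith
  have h17 : (17:ℝ) ≤ Real.exp 3 := by
    have h : Real.exp 3 = Real.exp 1 ^ 3 := by
      rw [← Real.exp_nat_mul]
      norm_num
    rw [h]
    have h5 : (2.7:ℝ) ≤ Real.exp 1 := by
      have := Real.exp_one_gt_d9
      linarith
    calc (17:ℝ) ≤ 2.7 ^ 3 := by norm_num
      _ ≤ _ := pow_le_pow_left₀ (by norm_num) h5 3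
  have hpw : (4 * L) ^ 6 = Real.exp (6 * Real.log (4 * L)) := by
    have : (6:ℝ) = ((6:ℕ):ℝ) := by norm_num
    rw [this, Real.exp_nat_mul, Real.exp_log (by positivity)]
  have hpw2 : L ^ 2 = Real.exp (2 * g) := by
    have : (2:ℝ) = ((2:ℕ):ℝ) := by norm_num
    rw [this, Real.exp_nat_mul, hg, Real.exp_log hLpos]
  have hpw33 : L ^ 33 = Real.exp (33 * g) := by
    have : (33:ℝ) = ((33:ℕ):ℝ) := by norm_num
    rw [this, Real.exp_nat_mul, hg, Real.exp_log hLpos]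
  rw [hpw, hpw2, hpw33]
  calc Real.exp (6 * Real.log (4 * L)) * (17 * Real.exp (2 * g)) * Real.exp (6 * (5 + 4 * Real.log (2 * L + 2)))
      ≤ Real.exp (6 * Real.log (4 * L)) * (Real.exp 3 * Real.exp (2 * g)) * Real.exp (6 * (5 + 4 * Real.log (2 * L + 2))) := by
        gcongr
    _ = Real.exp (6 * Real.log (4 * L) + 3 + 2 * g + 6 * (5 + 4 * Real.log (2 * L + 2))) := by
        rw [Real.exp_add, Real.exp_add, Real.exp_add]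
        ring
    _ ≤ Real.exp (33 * g) := by
        apply Real.exp_le_exp.2
        rw [← hg] at h4L
        linarith

/-- The sizes of `Q0`, `P`. -/
lemma PQ_facts (Y : ℕ) (L : ℝ) (hLdef : L = Real.log Y) (hL1000 : (1000:ℝ) ≤ L) :
    L ^ 16 ≤ ((Q0Q Y : ℕ):ℝ) ∧ 4 ≤ Q0Q Y ∧ PQ Y ≤ Q0Q Y := by
  have hL1 : (1:ℝ) ≤ L := by linarith
  have hQ0 : L ^ 16 ≤ ((Q0Q Y : ℕ):ℝ) := by
    unfold Q0Q
    rw [← hLdef]
    exact Nat.le_ceil _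
  refine ⟨hQ0, ?_, ?_⟩
  · have h1 : (1000:ℝ) ≤ L ^ 16 := by
      calc (1000:ℝ) ≤ L := hL1000
        _ ≤ L ^ 16 := le_self_pow₀ hL1 (by norm_num)
    have h2 : (4:ℝ) ≤ ((Q0Q Y : ℕ):ℝ) := by linarith
    exact_mod_cast h2
  · unfold PQ Q0Q
    rw [← hLdef]
    apply Nat.ceil_mono
    have hsq : Real.sqrt L ≤ L := by
      rw [Real.sqrt_le_left (by linarith)]
      nlinarith
    have hce : ((⌈Real.sqrt L⌉₊ : ℕ):ℝ) ≤ L + 1 := by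
      have := Nat.ceil_lt_add_one (a := Real.sqrt L) (Real.sqrt_nonneg _)
      linarith
    have h50 : (50 * ((⌈Real.sqrt L⌉₊ : ℕ):ℝ)) ^ 2 ≤ (50 * (L + 1)) ^ 2 := by
      gcongr
    have h3 : (50 * (L + 1)) ≤ L ^ 8 := by
      have h4 : L ^ 2 ≤ L ^ 8 := pow_le_pow_right₀ hL1 (by norm_num)
      nlinarith
    have h4 : (50 * (L + 1)) ^ 2 ≤ (L ^ 8) ^ 2 := pow_le_pow_left₀ (by positivity) h3 2
    calc (50 * ((⌈Real.sqrt L⌉₊ : ℕ):ℝ)) ^ 2 ≤ (L ^ 8) ^ 2 := h50.trans h4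
      _ = L ^ 16 := by ring

/-- `L ^ j2 ≤ t`. -/
lemma lj_fact (Y : ℕ) (L g ν₀ t : ℝ) (hLdef : L = Real.log Y) (hgdef : g = Real.log L) (hLpos : 0 < L) (hg0 : 0 < g)
    (hν₀ : ν₀ = 1 / (200 * g)) (hg14 : 3200 * g ^ 2 ≤ L ^ ((1:ℝ) / 4)) (htge : Real.exp (ν₀ * L / 16) ≤ t) :
    L ^ (j2Q Y) ≤ t := by
  have hj2le : ((j2Q Y : ℕ):ℝ) ≤ L ^ ((3:ℝ) / 4) := by
    unfold j2Q
    rw [← hLdef]
    exact Nat.floor_le (by positivity)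
  refine le_trans ?_ htge
  have h1 : L ^ (j2Q Y) = Real.exp (((j2Q Y : ℕ):ℝ) * g) := by
    rw [Real.exp_nat_mul, hgdef, Real.exp_log hLpos]
  rw [h1]
  apply Real.exp_le_exp.2
  have h2 : ((j2Q Y : ℕ):ℝ) * g ≤ L ^ ((3:ℝ) / 4) * g := by gcongr
  refine h2.trans ?_
  have h3 : L ^ ((3:ℝ) / 4) * L ^ ((1:ℝ) / 4) = L := by
    rw [← Real.rpow_add hLpos]
    norm_num
  have h4 : ν₀ * L / 16 = L / (3200 * g) := by
    rw [hν₀]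
    field_simp
    norm_num
  rw [h4, le_div_iff₀ (by positivity)]
  have h5 : 0 ≤ L ^ ((3:ℝ) / 4) := by positivity
  calc L ^ ((3:ℝ) / 4) * g * (3200 * g) = L ^ ((3:ℝ) / 4) * (3200 * g ^ 2) := by ring
    _ ≤ L ^ ((3:ℝ) / 4) * L ^ ((1:ℝ) / 4) := by gcongr
    _ = L := h3

/-- The facts on `T`. -/
lemma T_facts (Y : ℕ) (L g ν₀ : ℝ) (hYpos : (0:ℝ) < Y) (hLdef : L = Real.log Y) (hgdef : g = Real.log L) (hLpos : 0 < L) (hg0 : 0 < g)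
    (hν₀ : ν₀ = 1 / (200 * g)) (hA2 : (2:ℝ) ≤ Real.exp ((1 / (200 * g)) / 4 * L)) :
    Real.exp (ν₀ * L) ≤ (TQ Y : ℝ) ∧ (TQ Y : ℝ) ≤ 2 * Real.exp (ν₀ * L) ∧ 2 ≤ TQ Y ∧
      Real.log (TQ Y : ℝ) ≤ (5 / 4) * (1 / (200 * g)) * L := by
  have hν₀pos : 0 < ν₀ := by
    rw [hν₀]
    positivity
  have hgQ : gQ Y = g := by
    unfold gQ
    rw [← hLdef, hgdef]
  have hrp : ∀ x : ℝ, (Y:ℝ) ^ x = Real.exp (x * L) := by
    intro x
    rw [Real.rpow_def_of_pos hYpos, hLdef, mul_comm]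
  have hTce : TQ Y = ⌈Real.exp (ν₀ * L)⌉₊ := by
    unfold TQ
    rw [hgQ, ← hν₀, hrp]
  have hexp2 : (2:ℝ) ≤ Real.exp (ν₀ * L) := by
    refine hA2.trans (Real.exp_le_exp.2 ?_)
    rw [← hν₀]
    have : 0 < ν₀ * L := by positivity
    nlinarith
  have hTge : Real.exp (ν₀ * L) ≤ (TQ Y : ℝ) := by
    rw [hTce]
    exact Nat.le_ceil _
  have hTle : (TQ Y : ℝ) ≤ 2 * Real.exp (ν₀ * L) := by
    rw [hTce]
    have := Nat.ceil_lt_add_one (a := Real.exp (ν₀ * L)) (by positivity)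
    linarith
  have hT2 : 2 ≤ TQ Y := by
    have : (2:ℝ) ≤ (TQ Y : ℝ) := hexp2.trans hTge
    exact_mod_cast this
  have hT2' : (2:ℝ) ≤ (TQ Y : ℝ) := by exact_mod_cast hT2
  refine ⟨hTge, hTle, hT2, ?_⟩
  rw [Real.log_le_iff_le_exp (by linarith)]
  refine hTle.trans ?_
  have h1 : (5 / 4) * (1 / (200 * g)) * L = (1 / (200 * g)) / 4 * L + ν₀ * L := by
    rw [hν₀]
    ring
  rw [h1, Real.exp_add]
  gcongr

/-- The facts on `t = T^(1/16)`. -/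
lemma t_facts (T : ℕ) (L g ν₀ t : ℝ) (hT2 : 2 ≤ T) (ht : t = (T:ℝ) ^ ((1:ℝ) / 16)) (hν₀ : ν₀ = 1 / (200 * g))
    (hTge : Real.exp (ν₀ * L) ≤ (T:ℝ)) :
    1 ≤ t ∧ t ^ 16 = T ∧ Real.exp (ν₀ * L / 16) ≤ t ∧ Real.exp ((1 / (200 * g)) / 4 * L) ≤ t ^ 4 := by
  have hT2' : (2:ℝ) ≤ T := by exact_mod_cast hT2
  have hTpos : (0:ℝ) < T := by linarith
  have hT1 : (1:ℝ) ≤ T := by linarith
  refine ⟨?_, ?_, ?_, ?_⟩
  · rw [ht]
    exact Real.one_le_rpow hT1 (by norm_num)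
  · rw [ht, ← Real.rpow_natCast, ← Real.rpow_mul hTpos.le]
    norm_num
  · rw [ht]
    have h2 : Real.exp (ν₀ * L / 16) = (Real.exp (ν₀ * L)) ^ ((1:ℝ) / 16) := by
      rw [← Real.exp_mul]
      congr 1
      ring
    rw [h2]
    exact Real.rpow_le_rpow (Real.exp_pos _).le hTge (by norm_num)
  · have h1 : t ^ 4 = (T:ℝ) ^ ((1:ℝ) / 4) := by
      rw [ht, ← Real.rpow_natCast, ← Real.rpow_mul hTpos.le]
      norm_num
    rw [h1]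
    have h2 : Real.exp ((1 / (200 * g)) / 4 * L) = (Real.exp (ν₀ * L)) ^ ((1:ℝ) / 4) := by
      rw [← Real.exp_mul, hν₀]
      congr 1
      ring
    rw [h2]
    exact Real.rpow_le_rpow (Real.exp_pos _).le hTge (by norm_num)

/-- The free exponent `ε = -1`. -/
lemma eps_facts (L g : ℝ) (T : ℕ) (hgdef : g = Real.log L) (hL1000 : (1000:ℝ) ≤ L) (hLC : 5 + 4 * Real.log (2 * L + 2) ≤ 5 * Real.log L)
    (hg100 : (100:ℝ) ≤ g) (hlogT : Real.log T ≤ (5 / 4) * (1 / (200 * g)) * L) :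
    (∀ r : ℕ, (r:ℝ) ≤ 1 + L ^ ((-1:ℝ) / 4) → (L ^ 2) ^ r ≤ L ^ 2) ∧
    (∀ (s X : ℕ), L ^ ((-1:ℝ) / 4) < s → L ^ (16 * s) ≤ T → L / 2 ≤ Real.log X → 1 ≤ X →
      ∃ η : ℝ, 0 < η ∧ η ≤ 1 / 4 ∧ 2 ≤ ⌈(T:ℝ) ^ ((1:ℝ) / (s:ℝ))⌉₊ ∧
        (L ^ 2) ^ (s + 1) * ((X:ℝ) ^ (1 - η) *
          Real.exp (3 * ((⌈(T:ℝ) ^ ((1:ℝ) / (s:ℝ))⌉₊ : ℕ):ℝ) ^ η * Mer ⌈(T:ℝ) ^ ((1:ℝ) / (s:ℝ))⌉₊)) ≤ X) := by
  have hL1 : (1:ℝ) ≤ L := by linarith
  have hLpos : 0 < L := by linarith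
  constructor
  · intro r hr
    have h0 : L ^ ((-1:ℝ) / 4) < 1 := Real.rpow_lt_one_of_one_lt_of_neg (by linarith) (by norm_num)
    have h2' : (r:ℝ) < 2 := by linarith
    have h3 : r < 2 := by exact_mod_cast h2'
    have h1 : r ≤ 1 := by omega
    have h2 : (1:ℝ) ≤ L ^ 2 := one_le_pow₀ hL1
    calc (L ^ 2) ^ r ≤ (L ^ 2) ^ 1 := pow_le_pow_right₀ h2 h1
      _ = L ^ 2 := pow_one _
  · intro s X h1 h2 h3 h4
    have h0 : (0:ℝ) < L ^ ((-1:ℝ) / 4) := by positivity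
    have h5 : (0:ℝ) < s := lt_trans h0 h1
    have h6 : 1 ≤ s := by
      have : 0 < s := by exact_mod_cast h5
      omega
    exact N3_Q L g s T X hgdef hL1 hLC (by linarith) h6 h2 hlogT h3 h4

/-- The statement at one `Y`. -/
lemma KL_m_one {C ν : ℝ} (hν : 0 < ν) (hν1 : ν ≤ 1 / 16) (hC0 : 0 < C)
    (hC : ∀ (θ : ℝ) (N0 X0 U : ℕ) (η R : ℝ),
      1 ≤ X0 → 1 ≤ U → 0 < η → η ≤ 1 → 1 ≤ R → R ^ 3 ≤ N0 → (X0:ℝ) ≤ (N0:ℝ) ^ (2 / ν) →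
      (∀ n : ℕ, 1 ≤ n → n ≤ N0 → η ≤ dn ((n:ℝ) * θ)) →
      (16 * R ^ 2 / η ^ 2 ≤ X0 ∨ 2 * Real.sqrt R / η ≤ U) →
      ∑ x ∈ Ico X0 (8 * X0), ∑ x' ∈ (Ico X0 (8 * X0)).filter (· ≠ x),
          (Nat.gcd x x' : ℝ) * hh θ U (max x x' - min x x')
        ≤ C * (X0:ℝ) ^ 2 * (U:ℝ) ^ 2 * (1 + Real.log (X0:ℝ)) * (1 / (U:ℝ) + 1 / R))
    (Y Y' : ℕ) (hY3 : 3 ≤ Y) (hY' : Y' ≤ 2 * Y)
    (L g : ℝ) (hLdef : L = Real.log Y) (hgdef : g = Real.log L)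
    (hLC : 5 + 4 * Real.log (2 * L + 2) ≤ 5 * Real.log L)
    (hAoff : 12 * L ^ 2 * Real.sqrt (3 * C * (1 + L)) ≤ Real.exp ((1 / (200 * Real.log L)) / 4 * L))
    (hA16 : (16:ℝ) ≤ Real.exp ((ν / 2) * L)) (hA1088 : (1088:ℝ) ≤ Real.exp ((3 / 16) * L))
    (hA8 : (8:ℝ) ≤ Real.exp ((3 * ν / 8) * L)) (hA2 : (2:ℝ) ≤ Real.exp ((1 / (200 * Real.log L)) / 4 * L)) (hL1000 : (1000:ℝ) ≤ L)
    (hg100 : (100:ℝ) ≤ Real.log L) (hgν : 1 / ν ≤ Real.log L) (hg14 : 3200 * Real.log L ^ 2 ≤ L ^ ((1:ℝ) / 4))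
    (β : ℝ) (hMA : MA β ⌊(Y:ℝ) ^ ν⌋₊ ((Y:ℝ) ^ (-(1 / 4 : ℝ)))) (k : ℕ) (hk : 1 ≤ k)
    (hkL : (k:ℝ) ≤ Real.log Y / 50) (B M : ℕ) [NeZero M] (hM : 2 ≤ M) (hfits : ∀ a ∈ Ico 1 (Y' + 1), Fits B M a) :
    mm k (SS (B := B) (M := M) β (MQ Y Y')) ^ 2 ≤ Y * (Real.log Y) ^ 33 := by
  have hYpos : (0:ℝ) < Y := by
    have : (3:ℝ) ≤ Y := by exact_mod_cast hY3
    linarith
  rw [← hgdef] at hAoff hA2 hg100 hgν hg14 hLC
  rw [← hLdef] at hkL ⊢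
  have hLpos : 0 < L := by linarith
  have hg0 : 0 < g := by linarith
  obtain ⟨ν₀, hν₀⟩ : ∃ ν₀ : ℝ, ν₀ = 1 / (200 * g) := ⟨_, rfl⟩
  have hν₀pos : 0 < ν₀ := by
    rw [hν₀]
    positivity
  have hν₀1 : ν₀ ≤ ν / 8 := by
    rw [hν₀, div_le_div_iff₀ (by positivity) (by norm_num)]
    have h1 : 1 ≤ g * ν := by
      rw [div_le_iff₀ hν] at hgν
      exact hgν
    nlinarith
  obtain ⟨hTge, hTle, hT2, hlogT⟩ := T_facts Y L g ν₀ hYpos hLdef hgdef hLpos hg0 hν₀ hA2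
  obtain ⟨t, ht⟩ : ∃ t : ℝ, t = (TQ Y : ℝ) ^ ((1:ℝ) / 16) := ⟨_, rfl⟩
  obtain ⟨ht1, htT, htge, ht4⟩ := t_facts (TQ Y) L g ν₀ t hT2 ht hν₀ hTge
  have hS2 : ((S2Q Y : ℕ):ℝ) ≤ 2 * t := by
    unfold S2Q
    rw [← ht]
    have := Nat.ceil_lt_add_one (a := t) (by linarith)
    linarith
  have hlj : L ^ (j2Q Y) ≤ t := lj_fact Y L g ν₀ t hLdef hgdef hLpos hg0 hν₀ hg14 htge
  obtain ⟨y4, hy⟩ : ∃ y : ℝ, y = (Y:ℝ) ^ ((1:ℝ) / 4) := ⟨_, rfl⟩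
  have hy41 : 1 ≤ y4 := by
    rw [hy]
    have : (1:ℝ) ≤ Y := by
      have : (3:ℝ) ≤ Y := by exact_mod_cast hY3
      linarith
    exact Real.one_le_rpow this (by norm_num)
  have hy4 : y4 ^ 4 = Y := by
    rw [hy, ← Real.rpow_natCast, ← Real.rpow_mul hYpos.le]
    norm_num
  obtain ⟨hN1, hN2, hN3⟩ := TY_facts Y (TQ Y) ν ν₀ hν hν₀pos hν₀1 hν1 hYpos (by rw [← hLdef]; exact hLpos) hT2 (by rw [← hLdef]; exact hTle)
    (by rw [← hLdef]; exact hA16) (by rw [← hLdef]; exact hA1088) (by rw [← hLdef]; exact hA8)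
  rw [← hy] at hN3
  have hoff' : 12 * L ^ 2 * Real.sqrt (3 * C * (1 + L)) ≤ t ^ 4 := hAoff.trans ht4
  obtain ⟨hQ0, hQ4, hPQ⟩ := PQ_facts Y L hLdef hL1000
  have hL1 : (1:ℝ) ≤ L := by linarith
  obtain ⟨hN4, hN3'⟩ := eps_facts L g (TQ Y) hgdef hL1000 (by rw [← hgdef]; exact hLC) hg100 hlogT
  have hkl : 50 * (k:ℝ) ≤ L := by
    rw [le_div_iff₀ (by norm_num)] at hkL
    linarith
  exact KLm_abstract_G (D := 2 / ν) (C := C) (ν := ν) (ε := -1) hν rfl hC0 hC k hk hM L hkl hL1 (PQ Y) (Q0Q Y) (TQ Y) (S2Q Y) (j2Q Y) Y Y' β y4 t L (L ^ 2) (L ^ 33)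
    (by omega) hY' hT2 hPQ hQ4 hfits hQ0 ht1 htT hS2 hlj hy41 hy4 hLdef (by linarith) hMA hN1 hN2 hN3
    (one_le_pow₀ hL1) hoff' hN4 hN3' (N1_Q L g hgdef hL1 hg100)

/-- The main set, high moments. -/
theorem KL_m_Q (ν : ℝ) (hν : 0 < ν) (hν1 : ν ≤ 1 / 16) :
    ∃ Y0 : ℕ, ∀ Y Y' : ℕ, Y0 ≤ Y → Y' ≤ 2 * Y → ∀ β : ℝ,
      MA β ⌊(Y:ℝ) ^ ν⌋₊ ((Y:ℝ) ^ (-(1 / 4 : ℝ))) → ∀ k : ℕ, 1 ≤ k → (k:ℝ) ≤ Real.log Y / 50 →
      ∀ (B M : ℕ) [NeZero M], 2 ≤ M → (∀ a ∈ Ico 1 (Y' + 1), Fits B M a) →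
        mm k (SS (B := B) (M := M) β (MQ Y Y')) ^ 2 ≤ Y * (Real.log Y) ^ 33 := by
  have hD1 : (1:ℝ) ≤ 2 / ν := by
    rw [le_div_iff₀ hν]
    linarith
  obtain ⟨C, hC0, hC⟩ := p1_bound (2 / ν) hD1
  obtain ⟨L0, hL0⟩ := eventually_atTop.1 (ev_Q C ν hC0 hν)
  refine ⟨max ⌈Real.exp L0⌉₊ 3, ?_⟩
  intro Y Y' hY hY' β hMA k hk hkL B M _ hM hfits
  have hYexp : ⌈Real.exp L0⌉₊ ≤ Y := le_trans (le_max_left _ _) hY
  have hY3 : 3 ≤ Y := le_trans (le_max_right _ _) hY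
  have hYpos : (0:ℝ) < Y := by
    have : (3:ℝ) ≤ Y := by exact_mod_cast hY3
    linarith
  have hLL : L0 ≤ Real.log Y := by
    rw [Real.le_log_iff_exp_le hYpos]
    exact (Nat.le_ceil _).trans (by exact_mod_cast hYexp)
  obtain ⟨h1, h2, h3, h4, h5, h6, h7, h8, h9, h10, _⟩ := hL0 _ hLL
  exact KL_m_one hν hν1 hC0 hC Y Y' hY3 hY' _ _ rfl rfl h1 h2 h3 h4 h5 h6 h7 h8 h9 h10 β hMA k hk hkL B M hM hfits

end

end Vale.Agent.Lib.P028Q
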