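import Vale.Agent.Lib.P028K.KL

/-! Part KLsp: everything outside the main set. Blueprint section 10.1. -/

open Finset

namespace Vale.Agent.Lib.P028Q

open Vale.Agent.Lib.P028
open Vale.Agent.Lib.P028T
open Vale.Agent.Lib.P028K

noncomputable section

/-! ### Factorisation of the parts -/

private lemma klsp_rg_fact (P a q : ℕ) :
    (rgP P a).factorization q = if q ∈ a.primeFactors ∧ P ≤ q then a.factorization q else 0 := by
  unfold rgP
  have h0 : ∀ p ∈ a.primeFactors.filter (P ≤ ·), p ^ a.factorization p ≠ 0 := by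
    intro p hp
    have := Nat.prime_of_mem_primeFactors (Finset.mem_filter.1 hp).1
    exact pow_ne_zero _ this.ne_zero
  rw [Nat.factorization_prod h0, Finsupp.finsetSum_apply]
  have h1 : ∀ p ∈ a.primeFactors.filter (P ≤ ·), (p ^ a.factorization p).factorization q
      = if p = q then a.factorization p else 0 := by
    intro p hp
    have hp' := Nat.prime_of_mem_primeFactors (Finset.mem_filter.1 hp).1
    rw [hp'.factorization_pow, Finsupp.single_apply]
  rw [Finset.sum_congr rfl h1, Finset.sum_ite_eq']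
  simp only [Finset.mem_filter]

private lemma klsp_sm_fact (P a q : ℕ) :
    (smP P a).factorization q = if q ∈ a.primeFactors ∧ q < P then a.factorization q else 0 := by
  unfold smP
  have h0 : ∀ p ∈ a.primeFactors.filter (· < P), p ^ a.factorization p ≠ 0 := by
    intro p hp
    have := Nat.prime_of_mem_primeFactors (Finset.mem_filter.1 hp).1
    exact pow_ne_zero _ this.ne_zero
  rw [Nat.factorization_prod h0, Finsupp.finsetSum_apply]
  have h1 : ∀ p ∈ a.primeFactors.filter (· < P), (p ^ a.factorization p).factorization q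
      = if p = q then a.factorization p else 0 := by
    intro p hp
    have hp' := Nat.prime_of_mem_primeFactors (Finset.mem_filter.1 hp).1
    rw [hp'.factorization_pow, Finsupp.single_apply]
  rw [Finset.sum_congr rfl h1, Finset.sum_ite_eq']
  simp only [Finset.mem_filter]

private lemma klsp_fact_ne {a q : ℕ} (h : q ∈ a.primeFactors) : a.factorization q ≠ 0 := by
  rw [← Nat.support_factorization] at h
  exact Finsupp.mem_support_iff.1 h

private lemma klsp_rg_primes (P a q : ℕ) :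
    q ∈ (rgP P a).primeFactors ↔ q ∈ a.primeFactors ∧ P ≤ q := by
  rw [← Nat.support_factorization (rgP P a), Finsupp.mem_support_iff, klsp_rg_fact]
  constructor
  · intro h
    by_contra hc
    exact h (if_neg hc)
  · intro h
    rw [if_pos h]
    exact klsp_fact_ne h.1

private lemma klsp_sm_primes (P a q : ℕ) (h : q ∈ (smP P a).primeFactors) : q < P := by
  rw [← Nat.support_factorization (smP P a), Finsupp.mem_support_iff, klsp_sm_fact] at h
  by_contra hc
  exact h (if_neg fun h' => hc h'.2)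

private lemma klsp_qP (P Q a : ℕ) (hPQ : P ≤ Q) : qP Q (rgP P a) = qP Q a := by
  unfold qP
  have hset : (rgP P a).primeFactors.filter (fun p => Q ≤ p ∧ 2 ≤ (rgP P a).factorization p)
      = a.primeFactors.filter (fun p => Q ≤ p ∧ 2 ≤ a.factorization p) := by
    ext q
    simp only [Finset.mem_filter, klsp_rg_primes, klsp_rg_fact]
    constructor
    · rintro ⟨⟨h1, h2⟩, h3, h4⟩
      rw [if_pos ⟨h1, h2⟩] at h4
      exact ⟨h1, h3, h4⟩
    · rintro ⟨h1, h3, h4⟩
      have h2 : P ≤ q := hPQ.trans h3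
      rw [if_pos ⟨h1, h2⟩]
      exact ⟨⟨h1, h2⟩, h3, h4⟩
  rw [hset]
  refine Finset.prod_congr rfl fun q hq => ?_
  have hq' := Finset.mem_filter.1 hq
  rw [klsp_rg_fact, if_pos ⟨hq'.1, hPQ.trans hq'.2.1⟩]

private lemma klsp_hc (P Q a : ℕ) (hPQ : P ≤ Q) : hc Q (rgP P a) = hc Q a := by
  unfold hc
  have hset : (rgP P a).primeFactors.filter (fun p => Q ≤ p ∧ (rgP P a).factorization p = 1)
      = a.primeFactors.filter (fun p => Q ≤ p ∧ a.factorization p = 1) := by
    ext q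
    simp only [Finset.mem_filter, klsp_rg_primes, klsp_rg_fact]
    constructor
    · rintro ⟨⟨h1, h2⟩, h3, h4⟩
      rw [if_pos ⟨h1, h2⟩] at h4
      exact ⟨h1, h3, h4⟩
    · rintro ⟨h1, h3, h4⟩
      have h2 : P ≤ q := hPQ.trans h3
      rw [if_pos ⟨h1, h2⟩]
      exact ⟨⟨h1, h2⟩, h3, h4⟩
  rw [hset]

/-! ### One fibre -/

private lemma klsp_fiber (lam : ℝ) (hlam : 0 ≤ lam) (P s : ℕ) (A D : Finset ℕ)
    (hA0 : ∀ a ∈ A, a ≠ 0) (hD : ∀ a ∈ A, smP P a = s → rgP P a ∈ D) :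
    ∑ a ∈ A.filter (fun a => smP P a = s), lam ^ OO (rgP P a) ≤ ∑ c ∈ D, lam ^ OO c := by
  have hinj : Set.InjOn (rgP P) ((A.filter (fun a => smP P a = s) : Finset ℕ) : Set ℕ) := by
    intro a ha b hb hab
    have ha' := Finset.mem_filter.1 ha
    have hb' := Finset.mem_filter.1 hb
    have e1 := smP_mul_rgP P a (hA0 a ha'.1)
    have e2 := smP_mul_rgP P b (hA0 b hb'.1)
    rw [← e1, ← e2, ha'.2, hb'.2, hab]
  rw [← Finset.sum_image (f := fun c => lam ^ OO c) hinj]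
  refine Finset.sum_le_sum_of_subset_of_nonneg ?_ fun c _ _ => pow_nonneg hlam _
  intro c hc
  obtain ⟨a, ha, rfl⟩ := Finset.mem_image.1 hc
  have ha' := Finset.mem_filter.1 ha
  exact hD a ha'.1 ha'.2

private lemma klsp_rough (P Y Y' a s : ℕ) (hY' : Y' ≤ 2 * Y) (ha : a ∈ Ico Y Y') (ha0 : a ≠ 0)
    (hs : smP P a = s) (hs0 : s ≠ 0) :
    rgP P a ∈ Rough P ((Y - 1) / s + 1) (2 * ((Y - 1) / s + 1)) := by
  have ha' := Finset.mem_Ico.1 ha
  have e1 := smP_mul_rgP P a ha0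
  rw [hs] at e1
  have hc0 := sp_rgP_ne_zero P a ha0
  have hspos : 0 < s := Nat.pos_of_ne_zero hs0
  obtain ⟨d, hd⟩ : ∃ d, d = (Y - 1) / s := ⟨_, rfl⟩
  have hmod := Nat.div_add_mod (Y - 1) s
  have hlt := Nat.mod_lt (Y - 1) hspos
  rw [← hd] at hmod ⊢
  have hsX : Y ≤ s * (d + 1) := by
    rw [Nat.mul_succ]
    omega
  refine Finset.mem_filter.2 ⟨Finset.mem_Ico.2 ⟨?_, ?_⟩, hc0, fun p hp => ((klsp_rg_primes P a p).1 hp).2⟩
  · by_contra hlt2
    push Not at hlt2
    have : rgP P a ≤ d := by omega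
    have h3 : s * rgP P a ≤ s * d := Nat.mul_le_mul_left _ this
    omega
  · by_contra hlt2
    push Not at hlt2
    have h3 : s * (2 * (d + 1)) ≤ s * rgP P a := Nat.mul_le_mul_left _ hlt2
    have h4 : s * (2 * (d + 1)) = 2 * (s * (d + 1)) := by ring
    omega

/-! ### The core estimate, abstract parameters -/

lemma klsp_core_Q (lam : ℝ) (P Q0 T S2 j2 Y Y' k B M : ℕ) [NeZero M] (β : ℝ) (hY : 1 ≤ Y)
    (hY' : Y' ≤ 2 * Y) (hk : 1 ≤ k) (hlamk : 50 * (k:ℝ) ≤ lam) (h2 : 2 ≤ lam) (h100 : 100 * lam ≤ P)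
    (hQ8 : lam ^ 8 ≤ Q0) (hPQ : P ≤ Q0) (hT1 : 1 ≤ T) (hP55 : 55 ≤ P) (hS21 : 1 ≤ S2)
    (hfit : ∀ a ∈ Ico Y Y', Fits B M a) (e : ℝ)
    (hρ : ∀ X : ℝ, (Y:ℝ) / S2 ≤ X → (T:ℝ) ^ (-(1 / 4 : ℝ)) + (1 / 2 : ℝ) ^ j2 +
      ((T:ℝ) * T / X) ^ (1 / Real.log Q0) ≤ 4 * Real.exp (-e))
    (hS : (S2:ℝ) ^ (-(1 / Real.log P)) ≤ Real.exp (-e)) (he : 0 ≤ e) (e' : ℝ)
    (hfin : 5 + 9 * lam * (5 + 4 * Real.log (2 * Real.log (4 * Y) + 2)) + 36 * Real.sqrt P + e' ≤ e) (he' : 0 ≤ e') :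
    mm k (SS (B := B) (M := M) β (Ico Y Y' \ Mset P Q0 T T S2 j2 Y Y')) ^ 2 ≤ Y * Real.exp (-e') := by
  obtain ⟨A, hAdef⟩ : ∃ A, A = Ico Y Y' \ Mset P Q0 T T S2 j2 Y Y' := ⟨_, rfl⟩
  rw [← hAdef]
  have hAsub : ∀ a ∈ A, a ∈ Ico Y Y' := by
    intro a ha
    rw [hAdef] at ha
    exact (Finset.mem_sdiff.1 ha).1
  have hA : ∀ a ∈ A, Fits B M a := fun a ha => hfit a (hAsub a ha)
  have hA0 : ∀ a ∈ A, a ≠ 0 := fun a ha => (hA a ha).1
  have hsp := sp_general (B := B) (M := M) k hk lam hlamk P A β hA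
  have hlam0 : 0 ≤ lam := by linarith
  have hYr : (1:ℝ) ≤ Y := by exact_mod_cast hY
  have hY0 : (0:ℝ) < Y := by linarith
  obtain ⟨m, hm⟩ : ∃ m, m = 5 + 4 * Real.log (2 * Real.log (4 * Y) + 2) := ⟨_, rfl⟩
  rw [← hm] at hfin
  obtain ⟨Bd, hBd⟩ : ∃ Bd, Bd = Real.exp (9 * lam * m) := ⟨_, rfl⟩
  have hBd0 : 0 < Bd := by
    rw [hBd]
    exact Real.exp_pos _
  obtain ⟨E, hE⟩ : ∃ E, E = Real.exp (18 * Real.sqrt P) := ⟨_, rfl⟩
  have hE0 : 0 < E := by
    rw [hE]
    exact Real.exp_pos _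
  obtain ⟨G, hG⟩ : ∃ G, G = Real.sqrt (6 * Y * Bd) := ⟨_, rfl⟩
  have hG0 : 0 ≤ G := by
    rw [hG]
    exact Real.sqrt_nonneg _
  have hG2 : G ^ 2 = 6 * Y * Bd := by
    rw [hG]
    exact Real.sq_sqrt (by positivity)
  obtain ⟨F, hF⟩ : ∃ F, F = Real.exp (-(e / 2)) := ⟨_, rfl⟩
  have hF0 : 0 < F := by
    rw [hF]
    exact Real.exp_pos _
  have hF2 : F ^ 2 = Real.exp (-e) := by
    rw [hF, ← Real.exp_nat_mul]
    congr 1
    push_cast
    ring
  have hFle : Real.exp (-e) ≤ F := by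
    rw [hF]
    apply Real.exp_le_exp.2
    linarith
  -- the bound on one fibre
  have hkey : ∀ s ∈ A.image (smP P),
      Real.sqrt (∑ a ∈ A.filter (fun a => smP P a = s), lam ^ OO (rgP P a))
        ≤ G * (Real.sqrt s)⁻¹ * (if s ≤ S2 then 2 * F else 1) := by
    intro s hs
    obtain ⟨a0, ha0, hsa0⟩ := Finset.mem_image.1 hs
    have hs0 : s ≠ 0 := by
      rw [← hsa0]
      exact sp_smP_ne_zero P a0 (hA0 a0 ha0)
    have hspos : 0 < s := Nat.pos_of_ne_zero hs0
    have hsr : (0:ℝ) < s := by exact_mod_cast hspos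
    have hs2Y : s < 2 * Y := by
      have e1 := smP_mul_rgP P a0 (hA0 a0 ha0)
      have h3 := sp_rgP_ne_zero P a0 (hA0 a0 ha0)
      rw [hsa0] at e1
      have h4 : s ≤ a0 := by
        rw [← e1]
        exact Nat.le_mul_of_pos_right _ (Nat.pos_of_ne_zero h3)
      have h5 := (Finset.mem_Ico.1 (hAsub a0 ha0)).2
      omega
    obtain ⟨X, hX⟩ : ∃ X, X = (Y - 1) / s + 1 := ⟨_, rfl⟩
    have hX1 : 1 ≤ X := by
      rw [hX]
      exact Nat.le_add_left 1 _
    have hmod := Nat.div_add_mod (Y - 1) s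
    have hlt := Nat.mod_lt (Y - 1) hspos
    have hdle : (Y - 1) / s ≤ Y - 1 := Nat.div_le_self _ _
    obtain ⟨d, hd⟩ : ∃ d, d = (Y - 1) / s := ⟨_, rfl⟩
    obtain ⟨r, hr⟩ : ∃ r, r = (Y - 1) % s := ⟨_, rfl⟩
    rw [← hd, ← hr] at hmod
    rw [← hr] at hlt
    rw [← hd] at hdle
    have hXd : X = d + 1 := by rw [hX, hd]
    have hXs1 : Y ≤ s * X := by
      rw [hXd, Nat.mul_succ]
      omega
    have hXs2 : s * X ≤ 3 * Y := by
      rw [hXd, Nat.mul_succ]
      omega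
    have hXY : X ≤ Y := by
      omega
    have hXr1 : (Y:ℝ) / s ≤ X := by
      rw [div_le_iff₀ hsr, mul_comm]
      exact_mod_cast hXs1
    have hXr2 : (2:ℝ) * X ≤ 6 * Y / s := by
      rw [le_div_iff₀ hsr]
      have : ((s * X : ℕ):ℝ) ≤ ((3 * Y : ℕ):ℝ) := by exact_mod_cast hXs2
      push_cast at this
      linarith
    have hXr0 : (0:ℝ) < X := by exact_mod_cast hX1
    -- Mertens
    have hMer : Real.exp (9 * lam * Mer (2 * X)) ≤ Bd := by
      rw [hBd]
      apply Real.exp_le_exp.2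
      apply mul_le_mul_of_nonneg_left _ (by linarith)
      have h3 := Mer_le (2 * X) (by omega)
      rw [hm]
      refine h3.trans ?_
      have h4 : Real.log ((2 * X : ℕ):ℝ) ≤ Real.log (4 * Y) := by
        apply Real.log_le_log
        · push_cast
          linarith
        · push_cast
          have : (X:ℝ) ≤ Y := by exact_mod_cast hXY
          linarith
      have h5 : 0 ≤ Real.log ((2 * X : ℕ):ℝ) := by
        apply Real.log_nonneg
        push_cast
        have : (1:ℝ) ≤ X := by exact_mod_cast hX1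
        linarith
      have h6 : Real.log (2 * Real.log ((2 * X : ℕ):ℝ) + 2) ≤ Real.log (2 * Real.log (4 * Y) + 2) :=
        Real.log_le_log (by linarith) (by linarith)
      linarith
    have hsq : ((Real.sqrt s)⁻¹) ^ 2 = 1 / (s:ℝ) := by
      rw [inv_pow, Real.sq_sqrt hsr.le, one_div]
    have hinv0 : 0 ≤ (Real.sqrt s)⁻¹ := inv_nonneg.2 (Real.sqrt_nonneg _)
    have hRbase : 2 * (X:ℝ) * Real.exp (9 * lam * Mer (2 * X)) ≤ 6 * Y / s * Bd :=
      mul_le_mul hXr2 hMer (Real.exp_pos _).le (by positivity)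
    by_cases hsS : s ≤ S2
    · rw [if_pos hsS]
      apply Real.sqrt_le_iff.2
      refine ⟨by positivity, ?_⟩
      have h3 : ∑ a ∈ A.filter (fun a => smP P a = s), lam ^ OO (rgP P a)
          ≤ ∑ c ∈ (Rough P X (2 * X)).filter (fun a => T < qP Q0 a ∨ j2 < OO a ∨ (qP Q0 a ≤ T ∧ hc Q0 a < T)),
              lam ^ OO c := by
        apply klsp_fiber lam hlam0 P s A _ hA0
        intro a ha hsa
        refine Finset.mem_filter.2 ⟨?_, ?_⟩
        · rw [hX]
          exact klsp_rough P Y Y' a s hY' (hAsub a ha) (hA0 a ha) hsa hs0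
        · rw [klsp_qP P Q0 a hPQ, klsp_hc P Q0 a hPQ]
          have hnot : a ∉ Mset P Q0 T T S2 j2 Y Y' := by
            rw [hAdef] at ha
            exact (Finset.mem_sdiff.1 ha).2
          by_contra hcon
          push Not at hcon
          apply hnot
          refine Finset.mem_filter.2 ⟨hAsub a ha, hcon.1, by omega, hcon.2.1, hcon.2.2 hcon.1⟩
      have h4 := rare lam h2 P Q0 T T j2 X (2 * X) h100 hQ8 hPQ hX1 le_rfl hT1 hT1
      have h5 : (Y:ℝ) / S2 ≤ X := by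
        refine le_trans ?_ hXr1
        apply div_le_div_of_nonneg_left hY0.le hsr
        exact_mod_cast hsS
      have h6 := hρ X h5
      have h7 : 0 ≤ (T:ℝ) ^ (-(1 / 4 : ℝ)) + (1 / 2 : ℝ) ^ j2 +
          ((T:ℝ) * T / X) ^ (1 / Real.log Q0) := by positivity
      have h8 : 2 * (X:ℝ) * Real.exp (9 * lam * Mer (2 * X)) * ((T:ℝ) ^ (-(1 / 4 : ℝ)) + (1 / 2 : ℝ) ^ j2 +
          ((T:ℝ) * T / X) ^ (1 / Real.log Q0)) ≤ (6 * Y / s * Bd) * (4 * Real.exp (-e)) :=
        mul_le_mul hRbase h6 h7 (by positivity)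
      have h9 : (G * (Real.sqrt s)⁻¹ * (2 * F)) ^ 2 = (6 * Y / s * Bd) * (4 * Real.exp (-e)) := by
        rw [mul_pow, mul_pow, mul_pow, hG2, hsq, hF2]
        ring
      rw [h9]
      exact h3.trans (h4.trans h8)
    · rw [if_neg hsS, mul_one]
      apply Real.sqrt_le_iff.2
      refine ⟨by positivity, ?_⟩
      have h3 : ∑ a ∈ A.filter (fun a => smP P a = s), lam ^ OO (rgP P a)
          ≤ ∑ c ∈ Rough P X (2 * X), lam ^ OO c := by
        apply klsp_fiber lam hlam0 P s A _ hA0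
        intro a ha hsa
        rw [hX]
        exact klsp_rough P Y Y' a s hY' (hAsub a ha) (hA0 a ha) hsa hs0
      have h4 := bias lam h2 P X (2 * X) h100 hX1 le_rfl
      have h9 : (G * (Real.sqrt s)⁻¹) ^ 2 = 6 * Y / s * Bd := by
        rw [mul_pow, hG2, hsq]
        ring
      rw [h9]
      exact h3.trans (h4.trans hRbase)
  -- sum over the fibres
  have himg : ∀ s ∈ A.image (smP P), s ≠ 0 ∧ ∀ p ∈ s.primeFactors, p < P := by
    intro s hs
    obtain ⟨a0, ha0, rfl⟩ := Finset.mem_image.1 hs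
    exact ⟨sp_smP_ne_zero P a0 (hA0 a0 ha0), fun p hp => klsp_sm_primes P a0 p hp⟩
  have hsum1 : ∑ s ∈ (A.image (smP P)).filter (fun s => s ≤ S2), (Real.sqrt s)⁻¹ ≤ E := by
    have h3 := sum_smooth_large P hP55 1 le_rfl ((A.image (smP P)).filter (fun s => s ≤ S2)) (by
      intro s hs
      have hs' := himg s (Finset.mem_filter.1 hs).1
      refine ⟨hs'.1, hs'.2, ?_⟩
      exact_mod_cast Nat.pos_of_ne_zero hs'.1)
    rw [Real.one_rpow, one_mul] at h3
    rw [hE]
    exact h3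
  have hsum2 : ∑ s ∈ (A.image (smP P)).filter (fun s => ¬ s ≤ S2), (Real.sqrt s)⁻¹
      ≤ Real.exp (-e) * E := by
    have h3 := sum_smooth_large P hP55 (S2:ℝ) (by exact_mod_cast hS21)
      ((A.image (smP P)).filter (fun s => ¬ s ≤ S2)) (by
      intro s hs
      have hs1 := Finset.mem_filter.1 hs
      have hs' := himg s hs1.1
      refine ⟨hs'.1, hs'.2, ?_⟩
      have : S2 ≤ s := by omega
      exact_mod_cast this)
    rw [← hE] at h3
    exact h3.trans (mul_le_mul_of_nonneg_right hS hE0.le)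
  have hmm : mm k (SS (B := B) (M := M) β A) ≤ G * E * (3 * F) := by
    refine hsp.trans ?_
    refine (Finset.sum_le_sum hkey).trans ?_
    rw [← Finset.sum_filter_add_sum_filter_not (A.image (smP P)) (fun s => s ≤ S2)]
    have h3 : ∑ s ∈ (A.image (smP P)).filter (fun s => s ≤ S2),
        G * (Real.sqrt s)⁻¹ * (if s ≤ S2 then 2 * F else 1) ≤ G * E * (2 * F) := by
      have h4 : ∀ s ∈ (A.image (smP P)).filter (fun s => s ≤ S2),
          G * (Real.sqrt s)⁻¹ * (if s ≤ S2 then 2 * F else 1) = G * (2 * F) * (Real.sqrt s)⁻¹ := by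
        intro s hs
        rw [if_pos (Finset.mem_filter.1 hs).2]
        ring
      rw [Finset.sum_congr rfl h4, ← Finset.mul_sum]
      calc G * (2 * F) * _ ≤ G * (2 * F) * E := mul_le_mul_of_nonneg_left hsum1 (by positivity)
        _ = G * E * (2 * F) := by ring
    have h5 : ∑ s ∈ (A.image (smP P)).filter (fun s => ¬ s ≤ S2),
        G * (Real.sqrt s)⁻¹ * (if s ≤ S2 then 2 * F else 1) ≤ G * E * F := by
      have h4 : ∀ s ∈ (A.image (smP P)).filter (fun s => ¬ s ≤ S2),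
          G * (Real.sqrt s)⁻¹ * (if s ≤ S2 then 2 * F else 1) = G * (Real.sqrt s)⁻¹ := by
        intro s hs
        rw [if_neg (Finset.mem_filter.1 hs).2, mul_one]
      rw [Finset.sum_congr rfl h4, ← Finset.mul_sum]
      calc G * _ ≤ G * (Real.exp (-e) * E) := mul_le_mul_of_nonneg_left hsum2 hG0
        _ ≤ G * (F * E) := by
            apply mul_le_mul_of_nonneg_left _ hG0
            exact mul_le_mul_of_nonneg_right hFle hE0.le
        _ = G * E * F := by ring
    have h7 : G * E * (3 * F) = G * E * (2 * F) + G * E * F := by ring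
    rw [h7]
    exact add_le_add h3 h5
  have hmm0 := mm_nonneg k (SS (B := B) (M := M) β A)
  have hsq : mm k (SS (B := B) (M := M) β A) ^ 2 ≤ (G * E * (3 * F)) ^ 2 :=
    pow_le_pow_left₀ hmm0 hmm 2
  refine hsq.trans ?_
  have hE2 : E ^ 2 = Real.exp (36 * Real.sqrt P) := by
    rw [hE, ← Real.exp_nat_mul]
    congr 1
    push_cast
    ring
  have hval : (G * E * (3 * F)) ^ 2 = 54 * Y * (Bd * E ^ 2 * F ^ 2) := by
    rw [mul_pow, mul_pow, mul_pow, hG2]
    ring
  rw [hval, hBd, hE2, hF2, ← Real.exp_add, ← Real.exp_add]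
  have h7 : Real.exp (9 * lam * m + 36 * Real.sqrt P + -e) ≤ Real.exp (-5) * Real.exp (-e') := by
    rw [← Real.exp_add]
    exact Real.exp_le_exp.2 (by linarith)
  have h8 : (54:ℝ) * Real.exp (-5) ≤ 1 := by
    rw [Real.exp_neg, ← div_eq_mul_inv, div_le_one (Real.exp_pos _)]
    have he := Real.exp_one_gt_d9
    have h4 : Real.exp 5 = Real.exp 1 ^ 5 := by
      rw [← Real.exp_nat_mul]
      norm_num
    rw [h4]
    have h5 : (2.7 : ℝ) ^ 5 ≤ Real.exp 1 ^ 5 := pow_le_pow_left₀ (by norm_num) (by linarith) 5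
    norm_num at h5
    linarith
  calc 54 * (Y:ℝ) * Real.exp (9 * lam * m + 36 * Real.sqrt P + -e)
      ≤ 54 * (Y:ℝ) * (Real.exp (-5) * Real.exp (-e')) := mul_le_mul_of_nonneg_left h7 (by positivity)
    _ = (Y:ℝ) * Real.exp (-e') * (54 * Real.exp (-5)) := by ring
    _ ≤ (Y:ℝ) * Real.exp (-e') * 1 := mul_le_mul_of_nonneg_left h8 (by positivity)
    _ = (Y:ℝ) * Real.exp (-e') := mul_one _

end

end Vale.Agent.Lib.P028Q
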